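import Vale.Agent.P042PU.Core
import Vale.Agent.P042P.Defs

set_option autoImplicit false

/-!
P042, prime arguments: expansion of the weighted complete sum `GamW`.
-/

namespace Vale.Agent.P042PU

open Polynomial Finset Vale.Agent.P042 Vale.Agent.P042.SS Vale.Agent.P042PA

/-- **expansion of the weighted complete sum over the admissible residues** -/
theorem GamW_expandP (F : P042P.PL) {v : ℕ} (hFv : F.v = v) (hv : 1 ≤ v) (h : Int.gcd F.u v = 1)
    {PP : Finset ℕ} (hPP : ∀ p ∈ PP, p.Prime) (a : ℤ) {q : ℕ} (hq : 1 ≤ q) :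
    P042P.GamW F PP a q = ∑ S ∈ PP.powerset, ∑ r ∈ ZSP F.toPolynomial F.u v S,
      (((-1 : ℝ) ^ S.card * cf v PP S : ℝ) : ℂ) *
        GamL (H74.fer F.toPolynomial (∏ p ∈ S, p) r) (F.u + v * r) (v * ∏ p ∈ S, p) a q := by
  have h0 := expand_core F.toPolynomial hPP a hv hq h
  have h1 : P042P.GamW F PP a q = (∑ z ∈ Un F.u v (q * ∏ p ∈ PP, p),
      ((H74.om F.toPolynomial PP z * nq v PP q : ℝ) : ℂ) *
      e (a * ((F.toPolynomial.eval (z : ℤ) : ℤ) : ℝ) / q)) / ((q * ∏ p ∈ PP, p : ℕ) : ℂ) := by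
    unfold P042P.GamW Un
    congr 1
    rw [sum_filter]
    refine sum_congr rfl fun z _ => ?_
    rw [← mul_assoc, ← Complex.ofReal_mul]
    unfold P042P.om P042P.nu
    rw [weight_eq F.toPolynomial (v := v) hPP hq z (F.u + v * z)]
    · split_ifs <;> simp
    · intro p hp hd
      rw [if_pos]
      rw [P042P.dvd_Dp F (hPP p hp), P042P.dvd_Lp F (hPP p hp), hFv]
      exact Or.inr ⟨hd, not_dvd_v (hPP p hp) h hd⟩
    · intro p hp hd
      simp only [P042P.dvd_Dp F (hPP p hp), P042P.dvd_Lp F (hPP p hp), hFv, hd, false_and,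
        or_false]
    · intro p hp hd
      have hp' := Nat.prime_of_mem_primeFactors (mem_sdiff.1 hp).1
      rw [if_pos]
      rw [P042P.dvd_Lp F hp', hFv]
      exact ⟨hd, not_dvd_v hp' h hd⟩
    · intro p hp hd
      have hp' := Nat.prime_of_mem_primeFactors (mem_sdiff.1 hp).1
      rw [if_neg]
      · unfold P042P.wl
        simp only [hFv, Int.natCast_dvd_natCast]
      · rw [P042P.dvd_Lp F hp', hFv]
        exact fun h2 => hd h2.1
  rw [h1, h0, mul_sum]
  refine sum_congr rfl fun S _ => ?_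
  rw [mul_sum]
  refine sum_congr rfl fun r _ => ?_
  unfold cf
  push_cast
  ring

/-- admissible arguments in the two languages -/
theorem prL_iff (F : P042P.PL) {v : ℕ} (hFv : F.v = v) (x : ℕ) :
    PrL F.u v x ↔ P042P.pr F x := by
  unfold PrL P042P.pr
  rw [hFv]
  constructor
  · intro h
    refine ⟨_, h, Int.toNat_of_nonneg ?_⟩
    by_contra hn
    rw [Int.toNat_of_nonpos (by omega)] at h
    exact Nat.not_prime_zero h
  · rintro ⟨p, hp, he⟩
    rw [← he, Int.toNat_natCast]
    exact hp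

/-- admissible arguments after the substitution -/
theorem pr_of_prL (F : P042P.PL) {v : ℕ} (hFv : F.v = v) (m r x : ℕ)
    (h : PrL (F.u + v * r) (v * m) x) : P042P.pr F ((m * x + r : ℕ) : ℤ) := by
  rw [← prL_iff F hFv]
  unfold PrL at h ⊢
  have e : F.u + v * ((m * x + r : ℕ) : ℤ) = F.u + v * r + ((v * m : ℕ) : ℤ) * x := by
    push_cast
    ring
  rw [e]
  exact h

end Vale.Agent.P042PU
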