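import Vale.Agent.P042PA.Defs

set_option autoImplicit false

/-!
P042, prime arguments: the admissible residues and the complete sums over them.
-/

namespace Vale.Agent.P042PU

open Polynomial Finset Vale.Agent.P042 Vale.Agent.P042.SS Vale.Agent.P042PA

theorem sum_range_mul' {M : Type} [AddCommMonoid M] (q w : ℕ) (G : ℕ → M) :
    ∑ x ∈ range (q * w), G x = ∑ y ∈ range q, ∑ t ∈ range w, G (y + q * t) := by
  induction w with
  | zero => simp
  | succ w ih =>
    rw [Nat.mul_succ, sum_range_add, ih, ← sum_add_distrib]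
    refine sum_congr rfl fun y _ => ?_
    rw [sum_range_succ, add_comm (q * w) y]

theorem mem_Un {u : ℤ} {v q x : ℕ} : x ∈ Un u v q ↔ x < q ∧ IsCoprime (u + v * x) (q : ℤ) := by
  unfold Un
  rw [mem_filter, mem_range, Int.isCoprime_iff_gcd_eq_one]

theorem cop_split (u : ℤ) (v q w y t : ℕ) :
    IsCoprime (u + v * ((y + q * t : ℕ) : ℤ)) ((q * w : ℕ) : ℤ) ↔
      IsCoprime (u + v * y) (q : ℤ) ∧
        IsCoprime ((u + v * y) + ((v * q : ℕ) : ℤ) * t) (w : ℤ) := by
  have e1 : u + v * ((y + q * t : ℕ) : ℤ) = (u + v * y) + q * (v * t) := by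
    push_cast
    ring
  have e2 : (u + v * y) + ((v * q : ℕ) : ℤ) * t = (u + v * y) + q * (v * t) := by
    push_cast
    ring
  rw [e1, e2, Nat.cast_mul, IsCoprime.mul_right_iff, IsCoprime.add_mul_left_left_iff]

/-- refinement of the modulus -/
theorem sum_Un_mul {M : Type} [AddCommMonoid M] (u : ℤ) (v q w : ℕ) (F : ℕ → M) :
    ∑ x ∈ Un u v (q * w), F x =
      ∑ y ∈ Un u v q, ∑ t ∈ Un (u + v * y) (v * q) w, F (y + q * t) := by
  unfold Un
  rw [sum_filter, sum_range_mul', sum_filter]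
  refine sum_congr rfl fun y _ => ?_
  simp only [← Int.isCoprime_iff_gcd_eq_one, cop_split]
  by_cases h : IsCoprime (u + v * y) (q : ℤ)
  · rw [if_pos h, sum_filter]
    simp only [h, true_and]
  · rw [if_neg h]
    simp only [h, false_and, if_false, sum_const_zero]

theorem cop_next {u : ℤ} {v q y : ℕ} (h : Int.gcd u v = 1) (hy : IsCoprime (u + v * y) (q : ℤ)) :
    Int.gcd (u + v * y) ((v * q : ℕ) : ℤ) = 1 := by
  rw [← Int.isCoprime_iff_gcd_eq_one] at h ⊢
  rw [Nat.cast_mul, IsCoprime.mul_right_iff, IsCoprime.add_mul_left_left_iff]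
  exact ⟨h, hy⟩

theorem cop_prime {a : ℤ} {p : ℕ} (hp : p.Prime) : IsCoprime a (p : ℤ) ↔ ¬ (p : ℤ) ∣ a := by
  rw [isCoprime_comm, (Nat.prime_iff_prime_int.1 hp).coprime_iff_not_dvd]

theorem un_prime (u : ℤ) (v p : ℕ) (hp : p.Prime) (h : Int.gcd u v = 1) :
    (Un u v p).card * Nat.totient v = Nat.totient (v * p) := by
  rw [← Int.isCoprime_iff_gcd_eq_one] at h
  by_cases hv : p ∣ v
  · have e : Un u v p = range p := by
      ext x
      rw [mem_Un, mem_range, and_iff_left]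
      obtain ⟨c, hc⟩ := hv
      have e2 : u + v * x = u + p * (c * x) := by
        rw [hc]
        push_cast
        ring
      rw [e2, IsCoprime.add_mul_left_left_iff]
      rw [hc, Nat.cast_mul, IsCoprime.mul_right_iff] at h
      exact h.1
    rw [e, card_range, mul_comm v p, Nat.totient_mul_of_prime_of_dvd hp hv]
  · have : Fact p.Prime := ⟨hp⟩
    have hv0 : (v : ZMod p) ≠ 0 := by rwa [Ne, ZMod.natCast_eq_zero_iff]
    obtain ⟨x0, hx0⟩ : ∃ x0 : ℕ, x0 = (-(u : ZMod p) / v).val := ⟨_, rfl⟩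
    have hlt : x0 < p := hx0 ▸ ZMod.val_lt _
    have e : Un u v p = (range p).erase x0 := by
      ext x
      rw [mem_Un, mem_erase, mem_range, cop_prime hp, ← ZMod.intCast_zmod_eq_zero_iff_dvd]
      push_cast
      have h1 : (u : ZMod p) + v * x = 0 ↔ (x : ZMod p) = -(u : ZMod p) / v := by
        rw [eq_div_iff hv0]
        constructor <;> intro h2 <;> linear_combination h2
      rw [h1]
      constructor
      · rintro ⟨h2, h3⟩
        refine ⟨fun h4 => h3 ?_, h2⟩
        rw [h4, hx0, ZMod.natCast_zmod_val]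
      · rintro ⟨h2, h3⟩
        refine ⟨h3, fun h4 => h2 ?_⟩
        rw [hx0, ← h4, ZMod.val_cast_of_lt h3]
    rw [e, card_erase_of_mem (mem_range.2 hlt), card_range, mul_comm v p,
      Nat.totient_mul_of_prime_of_not_dvd hp hv]

/-- number of admissible residues -/
theorem un_holds : UnStmt := by
  intro u v q hv hq h
  induction q using induction_on_primes with
  | zero => omega
  | one =>
    have e : Un u v 1 = {0} := by
      ext x
      rw [mem_Un, mem_singleton, Nat.cast_one, and_iff_left isCoprime_one_right, Nat.lt_one_iff]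
    rw [e, card_singleton, one_mul, mul_one]
  | prime_mul p a hp ih =>
    have ha : 1 ≤ a := Nat.pos_of_mul_pos_left hq
    have h1 := ih ha
    have h2 : (Un u v (a * p)).card * Nat.totient (v * a) =
        (Un u v a).card * Nat.totient (v * a * p) := by
      rw [card_eq_sum_ones, sum_Un_mul, sum_mul, card_eq_sum_ones, sum_mul]
      refine sum_congr rfl fun y hy => ?_
      rw [← card_eq_sum_ones, one_mul]
      exact un_prime _ _ p hp (cop_next h (mem_Un.1 hy).2)
    have h3 : 0 < Nat.totient (v * a) := Nat.totient_pos.2 (Nat.mul_pos hv ha)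
    refine Nat.eq_of_mul_eq_mul_right h3 ?_
    rw [mul_comm p a, mul_right_comm, h2, ← mul_assoc v, mul_right_comm, h1, mul_comm]

theorem card_Un {u : ℤ} {v q : ℕ} (hv : 1 ≤ v) (hq : 1 ≤ q) (h : Int.gcd u v = 1) :
    ((Un u v q).card : ℝ) = (Nat.totient (v * q) : ℝ) / (Nat.totient v : ℝ) := by
  have h3 : (0 : ℝ) < Nat.totient v := by exact_mod_cast Nat.totient_pos.2 hv
  rw [eq_div_iff h3.ne']
  exact_mod_cast un_holds u v q hv hq h

/-- the normalised complete sum is bounded by one -/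
theorem norm_GamL_le (f : ℤ[X]) {u : ℤ} {v : ℕ} (a : ℤ) {q : ℕ} (hv : 1 ≤ v) (hq : 1 ≤ q)
    (h : Int.gcd u v = 1) : ‖GamL f u v a q‖ ≤ 1 := by
  have h3 : (0 : ℝ) < Nat.totient v := by exact_mod_cast Nat.totient_pos.2 hv
  have h4 : (0 : ℝ) < Nat.totient (v * q) := by
    exact_mod_cast Nat.totient_pos.2 (Nat.mul_pos hv hq)
  unfold GamL
  rw [norm_mul, Complex.norm_real, Real.norm_of_nonneg (by positivity)]
  have h5 : ‖∑ x ∈ Un u v q, e (a * ((f.eval (x : ℤ) : ℤ) : ℝ) / q)‖ ≤ (Un u v q).card := by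
    refine (norm_sum_le _ _).trans (le_of_eq ?_)
    simp only [norm_e, sum_const, nsmul_eq_mul, mul_one]
  refine (mul_le_mul_of_nonneg_left h5 (by positivity)).trans (le_of_eq ?_)
  rw [card_Un hv hq h]
  field_simp

/-- the phase depends on the numerator modulo `q` only -/
theorem e_congr {q : ℕ} (hq : 1 ≤ q) {s t : ℤ} (h : (q : ℤ) ∣ s - t) :
    e ((s : ℝ) / q) = e ((t : ℝ) / q) := by
  obtain ⟨c, hc⟩ := h
  have hq0 : (q : ℝ) ≠ 0 := by positivity
  have h1 : s = t + q * c := by linarith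
  have h2 : (s : ℝ) / q = (t : ℝ) / q + (c : ℝ) := by
    rw [h1]
    push_cast
    field_simp
  rw [h2, e_add, e_int, mul_one]

theorem GamL_congr (f : ℤ[X]) (u : ℤ) (v : ℕ) {a b : ℤ} {q : ℕ} (hq : 1 ≤ q)
    (h : (q : ℤ) ∣ a - b) : GamL f u v a q = GamL f u v b q := by
  unfold GamL
  congr 1
  refine sum_congr rfl fun x _ => ?_
  rw [← Int.cast_mul, ← Int.cast_mul]
  refine e_congr hq ?_
  rw [← sub_mul]
  exact h.mul_right _

theorem GamL_add (f : ℤ[X]) (u : ℤ) (v : ℕ) (a n : ℤ) {q : ℕ} (hq : 1 ≤ q) :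
    GamL f u v (a + q * n) q = GamL f u v a q :=
  GamL_congr f u v hq ⟨n, by ring⟩

/-- a periodic function summed over the admissible residues of a multiple of the period -/
theorem sum_Un_period {u : ℤ} {v q w : ℕ} (hv : 1 ≤ v) (hq : 1 ≤ q) (hw : 1 ≤ w)
    (h : Int.gcd u v = 1) (F : ℕ → ℂ) (hF : ∀ x t, F (x + q * t) = F x) :
    ∑ x ∈ Un u v (q * w), F x =
      (((Nat.totient (v * q * w) : ℝ) / (Nat.totient (v * q) : ℝ) : ℝ) : ℂ) *
        ∑ x ∈ Un u v q, F x := by
  rw [sum_Un_mul, mul_sum]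
  refine sum_congr rfl fun y hy => ?_
  simp only [hF, sum_const, nsmul_eq_mul]
  rw [← card_Un (Nat.mul_pos hv hq) hw (cop_next h (mem_Un.1 hy).2), Complex.ofReal_natCast]

theorem phase_period (f : ℤ[X]) (a : ℤ) {q : ℕ} (hq : 1 ≤ q) (x t : ℕ) :
    e (a * ((f.eval ((x + q * t : ℕ) : ℤ) : ℤ) : ℝ) / q) =
      e (a * ((f.eval (x : ℤ) : ℤ) : ℝ) / q) := by
  rw [← Int.cast_mul, ← Int.cast_mul]
  refine e_congr hq ?_
  rw [← mul_sub]
  refine Dvd.dvd.mul_left (Dvd.dvd.trans ?_ (sub_dvd_eval_sub _ _ f)) a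
  exact ⟨t, by push_cast; ring⟩

/-- the complete sum over a multiple of the modulus -/
theorem sum_Un_GamL (f : ℤ[X]) {u : ℤ} {v : ℕ} (a : ℤ) {q w : ℕ} (hv : 1 ≤ v) (hq : 1 ≤ q)
    (hw : 1 ≤ w) (h : Int.gcd u v = 1) :
    ∑ x ∈ Un u v (q * w), e (a * ((f.eval (x : ℤ) : ℤ) : ℝ) / q) =
      (((Nat.totient (v * q * w) : ℝ) / (Nat.totient v : ℝ) : ℝ) : ℂ) * GamL f u v a q := by
  have h3 : (Nat.totient v : ℂ) ≠ 0 := by exact_mod_cast (Nat.totient_pos.2 hv).ne'
  have h4 : (Nat.totient (v * q) : ℂ) ≠ 0 := by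
    exact_mod_cast (Nat.totient_pos.2 (Nat.mul_pos hv hq)).ne'
  rw [sum_Un_period hv hq hw h _ (phase_period f a hq)]
  unfold GamL
  push_cast
  field_simp

end Vale.Agent.P042PU
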