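import Vale.Agent.P042PU.Nu

set_option autoImplicit false

/-!
P042, prime arguments: the size of the complete sums with the unit weight.
-/

namespace Vale.Agent.P042PU

open Polynomial Finset Vale.Agent.P042 Vale.Agent.P042.SS
open Vale.Agent.P042.H74 (avC Per avC_period avC_crt ef_per eval_dvd_congr avC_zero eval_shift
  norm_le_kapProd)
open Vale.Agent.P042P (PL Lp Dp nu dvd_Lp dvd_Dp Lp_eval)

/-- a weight of period `D / p` on nonsingular residues has no coefficient at `D`, `p ^ 2 ∣ D` -/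
theorem avC_zero_w (f : ℤ[X]) {a : ℤ} {D p w : ℕ} (hp : p.Prime) (hw : D = p ^ 2 * w)
    (hw1 : 1 ≤ w) (hpa : ¬ (p : ℤ) ∣ a) {W : ℤ → ℂ} (hW : Per (p * w) W)
    (hns : ∀ z, W z ≠ 0 → ¬ (p : ℤ) ∣ (derivative f).eval z) :
    avC D (fun z => W z * e (a * ((f.eval z : ℤ) : ℝ) / D)) = 0 := by
  have hD : 1 ≤ D := hw ▸ Nat.mul_pos (pow_pos hp.pos 2) hw1
  have hp0 : (p : ℝ) ≠ 0 := by exact_mod_cast hp.ne_zero
  have hw0 : (w : ℝ) ≠ 0 := by positivity
  refine avC_zero (p := p) (s := p * w) hD hp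
    ((hW.of_dvd ⟨p, by rw [hw]; ring⟩).mul (ef_per f a D hD))
    (fun z => a * (derivative f).eval z) ?_ ?_
  · intro z hz h
    rcases (Nat.prime_iff_prime_int.1 hp).dvd_or_dvd h with h | h
    · exact hpa h
    · exact hns z (left_ne_zero_of_mul hz) h
  · intro j z
    obtain ⟨c, hc⟩ := eval_shift f D (p * w * j) z ⟨w * j ^ 2, by rw [hw]; ring⟩
    have he : e (a * ((f.eval (z + ((p * w * j : ℕ) : ℤ)) : ℤ) : ℝ) / D) =
        e (a * ((f.eval z : ℤ) : ℝ) / D) *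
          e (((a * (derivative f).eval z : ℤ) : ℝ) * ((j : ℝ) / p)) := by
      rw [hc]
      have h4 : (a : ℝ) * ((f.eval z + ((p * w * j : ℕ) : ℤ) * (derivative f).eval z + D * c : ℤ)
          : ℝ) / D = (a * ((f.eval z : ℤ) : ℝ) / D +
            ((a * (derivative f).eval z : ℤ) : ℝ) * ((j : ℝ) / p)) + ((a * c : ℤ) : ℝ) := by
        rw [hw]
        push_cast
        field_simp
      rw [h4, e_add, e_int, mul_one, e_add]
    have h5 := hW.mul_nat j z
    rw [← Nat.cast_mul] at h5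
    rw [h5, he]
    ring

theorem avC_add (M : ℕ) (F G : ℤ → ℂ) : avC M (fun z => F z + G z) = avC M F + avC M G := by
  unfold avC
  rw [sum_add_distrib, add_div]

theorem avC_const_mul (M : ℕ) (c : ℂ) (F : ℤ → ℂ) : avC M (fun z => c * F z) = c * avC M F := by
  unfold avC
  rw [← mul_sum, mul_div_assoc]

/-- a bounded function supported on few classes modulo `p` -/
theorem norm_avC_le {p w : ℕ} (hw : 1 ≤ w) (g : ℤ[X]) {c : ℝ} {F : ℤ → ℂ}
    (hF : ∀ z, ‖F z‖ ≤ if (p : ℤ) ∣ g.eval z then c else 0) :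
    ‖avC (p * w) F‖ ≤ c * (((range p).filter fun z : ℕ => (p : ℤ) ∣ g.eval (z : ℤ)).card / p) := by
  have h1 := avC_period (M := p) hw (F := fun z => if (p : ℤ) ∣ g.eval z then (c : ℂ) else 0)
    (fun z => by simp only [H74.eval_dvd_shift])
  unfold avC at h1
  simp only [← apply_ite (fun x : ℝ => (x : ℂ)), ← Complex.ofReal_zero] at h1
  rw [← Complex.ofReal_sum, ← Complex.ofReal_sum, ← Complex.ofReal_natCast,
    ← Complex.ofReal_natCast, ← Complex.ofReal_div, ← Complex.ofReal_div,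
    Complex.ofReal_inj, ← sum_filter (s := range p), sum_const, nsmul_eq_mul] at h1
  unfold avC
  rw [norm_div, Complex.norm_natCast, ← mul_div_assoc, mul_comm c, ← h1]
  exact div_le_div_of_nonneg_right ((norm_sum_le _ _).trans (sum_le_sum fun z _ => hF _))
    (Nat.cast_nonneg _)

theorem nu_pow (F : PL) {p j : ℕ} (hp : p.Prime) (hj : 1 ≤ j) (z : ℤ) :
    nu F ∅ (p ^ j) z = if (p : ℤ) ∣ (Lp F p).eval z then 0 else P042P.wl F p := by
  rw [nu_eq, sdiff_empty, Nat.primeFactors_prime_pow (by omega) hp]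
  exact prod_singleton _ _

/-- higher prime powers: only the singular classes count -/
theorem Gam_two (F : PL) {p j : ℕ} (hp : p.Prime) (hj : 2 ≤ j) {a : ℤ} (hpa : ¬ (p : ℤ) ∣ a)
    (hk1 : 1 ≤ F.natDegree) (hkp : F.natDegree < p)
    (hnc : ∃ j : ℕ, 1 ≤ j ∧ ¬ (p : ℤ) ∣ F.coeff j) :
    ‖P042P.Gam F a (p ^ j)‖ ≤ F.natDegree / p := by
  obtain ⟨i, rfl⟩ := Nat.exists_eq_add_of_le hj
  have hi : 1 ≤ p ^ i := pow_pos hp.pos i
  have h2 : (2 : ℝ) ≤ p := by exact_mod_cast hp.two_le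
  have hper : Per p (fun z => (nu F ∅ (p ^ (2 + i)) z : ℂ)) :=
    nu_per F ∅ _ p fun l hl hd => hl.dvd_of_dvd_pow hd
  have h0 := avC_zero_w F.toPolynomial hp (pow_add p 2 i) hi hpa
    (W := fun z => (H74.om F.toPolynomial {p} z : ℂ) * (nu F ∅ (p ^ (2 + i)) z : ℂ))
    (((H74.om_per _ _ p (by simp)).mul hper).of_dvd (dvd_mul_right _ _))
    (fun z hz => H74.om_ne_zero _ _ z (left_ne_zero_of_mul hz) p (mem_singleton_self p))
  have h1 : P042P.Gam F a (p ^ (2 + i)) = avC (p ^ (2 + i)) (fun z =>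
      (1 - (H74.om F.toPolynomial {p} z : ℂ)) * (nu F ∅ (p ^ (2 + i)) z : ℂ) *
        e (a * ((F.eval z : ℤ) : ℝ) / ((p ^ (2 + i) : ℕ) : ℝ))) := by
    rw [← zero_add (avC _ _), ← h0, ← avC_add, Gam_eq_avC]
    congr 1
    funext z
    ring
  have h3 : p ^ (2 + i) = p * p ^ (1 + i) := by ring
  have h4 := norm_avC_le (p := p) (w := p ^ (1 + i)) (pow_pos hp.pos _)
    (derivative F.toPolynomial) (c := p / (p - 1))
    (F := fun z => (1 - (H74.om F.toPolynomial {p} z : ℂ)) * (nu F ∅ (p ^ (2 + i)) z : ℂ) *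
        e (a * ((F.eval z : ℤ) : ℝ) / ((p ^ (2 + i) : ℕ) : ℝ))) (fun z => by
      rw [norm_mul, norm_e, mul_one, H74.om, prod_singleton]
      split_ifs with h5
      · rw [Complex.ofReal_zero, sub_zero, one_mul, Complex.norm_real,
          Real.norm_of_nonneg (nu_nonneg _ _ _ _), nu_pow F hp (by omega)]
        split_ifs
        · exact div_nonneg (by linarith) (by linarith)
        · exact wl_le F hp
      · simp)
  rw [← h3, ← h1] at h4
  have h5 : (((range p).filter fun z : ℕ =>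
      (p : ℤ) ∣ (derivative F.toPolynomial).eval (z : ℤ)).card : ℝ) ≤ F.natDegree - 1 := by
    have h6 := H245.sing_card F.toPolynomial F.natDegree p hp hk1 rfl hkp hnc
    rw [le_sub_iff_add_le]
    exact_mod_cast (by omega : ((range p).filter fun z : ℕ =>
      (p : ℤ) ∣ (derivative F.toPolynomial).eval (z : ℤ)).card + 1 ≤ F.natDegree)
  have h6 : (F.natDegree : ℝ) ≤ p := by exact_mod_cast hkp.le
  refine h4.trans ((mul_le_mul_of_nonneg_left (div_le_div_of_nonneg_right h5 (by linarith))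
    (div_nonneg (by linarith) (by linarith))).trans ?_)
  rw [div_mul_div_comm, div_le_div_iff₀ (mul_pos (by linarith) (by linarith)) (by linarith)]
  nlinarith

/-- the part of the complete sum on the root of the linear form -/
noncomputable def Bad (F : PL) (a : ℤ) (p q : ℕ) : ℂ :=
  avC q (fun z => (if (p : ℤ) ∣ (Lp F p).eval z then 1 else 0) * e (a * ((F.eval z : ℤ) : ℝ) / q))

theorem Gam_pow (F : PL) {p j : ℕ} (hp : p.Prime) (hj : 1 ≤ j) (a : ℤ) :
    ‖P042P.Gam F a (p ^ j)‖ ≤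
      p / (p - 1) * (‖Gam F.toPolynomial a (p ^ j)‖ + ‖Bad F a p (p ^ j)‖) := by
  have h1 : P042P.Gam F a (p ^ j) =
      P042P.wl F p * (Gam F.toPolynomial a (p ^ j) - Bad F a p (p ^ j)) := by
    have h2 : Gam F.toPolynomial a (p ^ j) = avC (p ^ j) (fun z =>
        e (a * ((F.eval z : ℤ) : ℝ) / ((p ^ j : ℕ) : ℝ))) := rfl
    rw [h2, Bad, sub_eq_add_neg, ← neg_one_mul, ← avC_const_mul, ← avC_add, ← avC_const_mul,
      Gam_eq_avC]
    congr 1
    funext z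
    rw [nu_pow F hp hj]
    split_ifs <;> simp
  rw [h1, norm_mul, Complex.norm_real, Real.norm_of_nonneg (wl_nonneg F hp)]
  exact mul_le_mul (wl_le F hp) (norm_sub_le _ _) (norm_nonneg _)
    ((wl_nonneg F hp).trans (wl_le F hp))

theorem Bad_one (F : PL) {p : ℕ} (hp : p.Prime) (a : ℤ) : ‖Bad F a p p‖ ≤ 1 / p := by
  have h4 := norm_avC_le (p := p) (w := 1) le_rfl (Lp F p) (c := 1)
    (F := fun z => (if (p : ℤ) ∣ (Lp F p).eval z then 1 else 0) *
      e (a * ((F.eval z : ℤ) : ℝ) / p)) (fun z => by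
      rw [norm_mul, norm_e, mul_one]
      split_ifs <;> simp)
  rw [mul_one, one_mul] at h4
  refine h4.trans (div_le_div_of_nonneg_right ?_ (Nat.cast_nonneg _))
  exact_mod_cast card_Lp_le F hp

/-- a change of the linear coefficient which keeps the content -/
theorem exists_twist (f : ℤ[X]) (hk : 2 ≤ f.natDegree) {R p i : ℕ} (hp : p.Prime)
    (hpR : ¬ p ∣ R) (hcont : ∀ g : ℤ, (∀ j : ℕ, 1 ≤ j → g ∣ f.coeff j) → g ∣ (R : ℤ))
    {a : ℤ} (ha : IsCoprime a (p : ℤ)) (s : ℤ) : ∃ c : ℤ,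
      ((p ^ (i + 2) : ℕ) : ℤ) ∣ a * c - s * p ^ (i + 1) ∧
      ∀ g : ℤ, (∀ j : ℕ, 1 ≤ j → g ∣ (f + C c * X).coeff j) → g ∣ (R : ℤ) := by
  have hf0 : f.leadingCoeff ≠ 0 := leadingCoeff_ne_zero.2 fun h => by
    rw [h, natDegree_zero] at hk
    omega
  have hpi := Nat.prime_iff_prime_int.1 hp
  obtain ⟨w, m, hm, hw⟩ := WfDvdMonoid.max_power_factor hf0 hpi.irreducible
  have hmp : IsCoprime m (p : ℤ) := (hpi.coprime_iff_not_dvd.2 hm).symm
  obtain ⟨x, y, hxy⟩ := ha.mul_left hmp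
  refine ⟨p ^ (i + 1) * (m * (x * s)), ⟨-(y * s), ?_⟩, fun g hg => hcont g ?_⟩
  · push_cast
    linear_combination (s * (p : ℤ) ^ (i + 1)) * hxy
  · have hco : ∀ j : ℕ, (f + C ((p : ℤ) ^ (i + 1) * (m * (x * s))) * X).coeff j =
        f.coeff j + if j = 1 then (p : ℤ) ^ (i + 1) * (m * (x * s)) else 0 := fun j => by
      rw [coeff_add, coeff_C_mul_X]
    have key : ∀ d : ℤ, d ∣ g → d ∣ (p : ℤ) ^ (i + 1) * (m * (x * s)) →
        ∀ j : ℕ, 1 ≤ j → d ∣ f.coeff j := fun d hd hc j hj => by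
      have h1 := hd.trans (hg j hj)
      rw [hco] at h1
      split_ifs at h1
      · exact (dvd_add_left hc).1 h1
      · rwa [add_zero] at h1
    have h2 : ¬ (p : ℤ) ∣ g := fun h => hpR (Int.natCast_dvd_natCast.1
      (hcont p (key p h ((dvd_pow_self _ (by omega)).mul_right _))))
    have h3 := hg f.natDegree (by omega)
    rw [hco, if_neg (by omega), add_zero, coeff_natDegree, hw] at h3
    have h4 : g ∣ m := (IsCoprime.pow_right (hpi.coprime_iff_not_dvd.2 h2).symm).dvd_of_dvd_mul_left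
      h3
    exact key g dvd_rfl ((h4.mul_right _).mul_left _)

theorem Bad_two (F : PL) (hk : 2 ≤ F.natDegree) (hl : 0 < F.leadingCoeff) {R p i : ℕ}
    (hp : p.Prime) (hpR : ¬ p ∣ R)
    (hcont : ∀ g : ℤ, (∀ j : ℕ, 1 ≤ j → g ∣ F.coeff j) → g ∣ (R : ℤ)) {a : ℤ}
    (ha : IsCoprime a (p : ℤ)) {κ : ℝ} (hκ : 0 ≤ κ)
    (H : ∀ g : ℤ[X], g.natDegree = F.natDegree → 0 < g.leadingCoeff →
      (∀ d : ℤ, (∀ j : ℕ, 1 ≤ j → d ∣ g.coeff j) → d ∣ (R : ℤ)) → ‖Gam g a (p ^ (i + 2))‖ ≤ κ) :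
    ‖Bad F a p (p ^ (i + 2))‖ ≤ κ := by
  by_cases hv : (p : ℤ) ∣ F.v
  · simp [Bad, avC, dvd_Lp F hp, hv, hκ]
  choose c hc1 hc2 using fun t : ℕ => exists_twist F.toPolynomial hk (i := i) hp hpR hcont ha
    (t * F.v)
  have hp0 : (p : ℝ) ≠ 0 := by exact_mod_cast hp.ne_zero
  have hp1 : (p : ℂ) ≠ 0 := by exact_mod_cast hp.ne_zero
  have hq : 1 ≤ p ^ (i + 2) := pow_pos hp.pos _
  have h1 : ∀ z : ℤ, (if (p : ℤ) ∣ (Lp F p).eval z then (1 : ℂ) else 0) *
      e (a * ((F.eval z : ℤ) : ℝ) / ((p ^ (i + 2) : ℕ) : ℝ)) =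
      (∑ t ∈ range p, e (F.u * ((t : ℝ) / p)) *
        e (a * (((F.toPolynomial + C (c t) * X).eval z : ℤ) : ℝ) / ((p ^ (i + 2) : ℕ) : ℝ))) / p := by
    intro z
    have h2 : ∀ t : ℕ, e (F.u * ((t : ℝ) / p)) *
        e (a * (((F.toPolynomial + C (c t) * X).eval z : ℤ) : ℝ) / ((p ^ (i + 2) : ℕ) : ℝ)) =
        e (((F.u + F.v * z : ℤ) : ℝ) * ((t : ℝ) / p)) *
          e (a * ((F.eval z : ℤ) : ℝ) / ((p ^ (i + 2) : ℕ) : ℝ)) := fun t => by
      obtain ⟨y, hy⟩ := hc1 t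
      have h3 : (a : ℝ) * c t = t * F.v * (p : ℝ) ^ (i + 1) + (p : ℝ) ^ (i + 2) * y := by
        exact_mod_cast (by linear_combination hy :
          a * c t = t * F.v * (p : ℤ) ^ (i + 1) + ((p ^ (i + 2) : ℕ) : ℤ) * y)
      rw [← e_add, ← e_add, ← e_add_int _ (-(y * z))]
      congr 1
      rw [eval_add, eval_mul, eval_C, eval_X]
      push_cast
      field_simp
      linear_combination (p : ℝ) * (z : ℝ) * h3
    simp only [h2, dvd_Lp F hp, hv, not_false_eq_true, and_true]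
    rw [← sum_mul, echar_orth p hp.pos]
    split_ifs
    · field_simp
    · simp
  have h3 : Bad F a p (p ^ (i + 2)) = (∑ t ∈ range p, e (F.u * ((t : ℝ) / p)) *
      Gam (F.toPolynomial + C (c t) * X) a (p ^ (i + 2))) / p := by
    unfold Bad avC Gam
    simp only [h1]
    rw [← sum_div, sum_comm, div_right_comm, sum_div]
    congr 1
    refine sum_congr rfl fun t _ => ?_
    rw [← mul_sum, mul_div_assoc]
  have hlt : ∀ t, (C (c t) * X : ℤ[X]).natDegree < F.natDegree := fun t =>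
    lt_of_le_of_lt ((natDegree_C_mul_le _ _).trans natDegree_X_le) (by omega)
  rw [h3, norm_div, Complex.norm_natCast, div_le_iff₀ (by positivity)]
  refine (norm_sum_le_of_le _ (n := fun _ => κ) fun t _ => ?_).trans (le_of_eq ?_)
  · rw [norm_mul, norm_e, one_mul]
    refine H _ (natDegree_add_eq_left_of_natDegree_lt (hlt t)) ?_ (hc2 t)
    rwa [leadingCoeff_add_of_degree_lt' (degree_lt_degree (hlt t))]
  · rw [sum_const, card_range, nsmul_eq_mul, mul_comm]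

/-- **the complete sums with the unit weight** -/
theorem complete_sumsP (k : ℕ) (hk : 2 ≤ k) : ∃ E : ℕ, 1 ≤ E ∧ ∀ R : ℕ, 1 ≤ R →
    ∃ (K p0 : ℕ) (kap : ℕ → ℕ → ℝ), 1 ≤ K ∧ (∀ p j, 0 ≤ kap p j) ∧ (∀ p j, kap p j ≤ 1) ∧
      (∀ p j, p.Prime → p0 < p → 1 ≤ j → kap p j ≤ K * (p : ℝ) ^ (-(j : ℝ) / E)) ∧
      (∀ p, p.Prime → p0 < p → kap p 1 ≤ 2 * k / Real.sqrt p) ∧
      (∀ p j, p.Prime → p0 < p → 2 ≤ j → kap p j ≤ k / p) ∧
      ∀ F : PL, F.natDegree = k → 0 < F.leadingCoeff →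
        (∀ g : ℤ, (∀ j : ℕ, 1 ≤ j → g ∣ F.coeff j) → g ∣ (R : ℤ)) →
        (∀ (p : ℕ) (a : ℤ), p.Prime → p0 < p → IsCoprime a (p : ℤ) →
          ‖Gam F.toPolynomial a p‖ ≤ k / Real.sqrt p) ∧
        ∀ (q : ℕ) (a : ℤ), 1 ≤ q → IsCoprime a (q : ℤ) → ‖P042P.Gam F a q‖ ≤ kapProd kap q := by
  obtain ⟨E, hE, hcomp⟩ := complete_sums k (by omega)
  refine ⟨E, hE, fun R hR => ?_⟩
  obtain ⟨K, p0, kap, hK1, hkap0, hkap1, hpw, hone, htwo, hsum⟩ := hcomp R hR
  have hk0 : (2 : ℝ) ≤ k := by exact_mod_cast hk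
  have hK : (1 : ℝ) ≤ K := by exact_mod_cast hK1
  have hold : ∀ g : ℤ[X], g.natDegree = k → 0 < g.leadingCoeff →
      (∀ d : ℤ, (∀ j : ℕ, 1 ≤ j → d ∣ g.coeff j) → d ∣ (R : ℤ)) → ∀ (p j : ℕ) (a : ℤ), p.Prime →
      1 ≤ j → IsCoprime a (p : ℤ) → ‖Gam g a (p ^ j)‖ ≤ kap p j := by
    intro g h1 h2 h3 p j a hp hj ha
    have h4 := hsum g h1 h2 h3 (p ^ j) a (pow_pos hp.pos j)
      (by push_cast; exact IsCoprime.pow_right ha)
    rw [Nat.primeFactors_prime_pow (by omega) hp, prod_singleton, hp.factorization_pow,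
      Finsupp.single_eq_same] at h4
    unfold Gam
    rwa [norm_div, Complex.norm_natCast, div_le_iff₀ (by exact_mod_cast pow_pos hp.pos j)]
  refine ⟨4 * K, p0 + R + k + 3, fun p j => if p0 + R + k + 3 < p then
    min 1 (min (((4 * K : ℕ) : ℝ) * (p : ℝ) ^ (-(j : ℝ) / E))
      (if j = 1 then 2 * k / Real.sqrt p else k / p)) else 1, by omega, fun p j => ?_,
    fun p j => ?_, fun p j _ h _ => ?_, fun p _ h => ?_, fun p j _ h hj => ?_,
    fun F hF hl hc => ⟨fun p a hp h ha => ?_, fun q a hq ha => ?_⟩⟩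
  · beta_reduce
    split_ifs <;> positivity
  · beta_reduce
    split_ifs
    · exact min_le_left _ _
    · exact min_le_left _ _
    · exact le_rfl
  · beta_reduce
    rw [if_pos h]
    exact (min_le_right _ _).trans (min_le_left _ _)
  · beta_reduce
    rw [if_pos h, if_pos rfl]
    exact (min_le_right _ _).trans (min_le_right _ _)
  · beta_reduce
    rw [if_pos h, if_neg (by omega)]
    exact (min_le_right _ _).trans (min_le_right _ _)
  · have h1 := hold _ hF hl hc p 1 a hp le_rfl ha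
    rw [pow_one] at h1
    exact h1.trans (hone p hp (by omega))
  refine norm_le_kapProd (multFam_Gam F) _ (fun p j => by split_ifs <;> positivity)
    (fun p j a hp hj ha => ?_) q hq a ha
  have hle := norm_Gam_le_one F a (p ^ j)
  by_cases h : p0 + R + k + 3 < p
  swap
  · rwa [if_neg h]
  rw [if_pos h]
  have hp4 : (4 : ℝ) ≤ p := by exact_mod_cast (by omega : 4 ≤ p)
  have hw : (p : ℝ) / (p - 1) ≤ 4 / 3 := by
    rw [div_le_div_iff₀ (by linarith) (by norm_num)]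
    linarith
  have hpR : ¬ p ∣ R := fun hd => by
    have := Nat.le_of_dvd hR hd
    omega
  have h1 := (Gam_pow F hp hj a).trans (mul_le_mul_of_nonneg_right hw (by positivity))
  have h2 := hold _ hF hl hc p j a hp hj ha
  have h3 := hpw p j hp hj
  have h9 : 0 ≤ (p : ℝ) ^ (-(j : ℝ) / E) := by positivity
  rcases Nat.lt_or_ge j 2 with h4 | h4
  · obtain rfl : j = 1 := by omega
    have h5 := Bad_one F hp a
    have h6 := hone p hp (by omega)
    have hs : 0 < Real.sqrt p := Real.sqrt_pos.2 (by linarith)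
    have h7 : 1 / (p : ℝ) ≤ 1 / Real.sqrt p := one_div_le_one_div_of_le hs
      (Real.sqrt_le_iff.2 ⟨by linarith, by nlinarith⟩)
    have h8 : 1 / (p : ℝ) ≤ (p : ℝ) ^ (-((1 : ℕ) : ℝ) / E) := by
      rw [one_div, ← Real.rpow_neg_one]
      refine Real.rpow_le_rpow_of_exponent_le (by linarith) ?_
      rw [le_div_iff₀ (by exact_mod_cast hE), Nat.cast_one, neg_one_mul, neg_le_neg_iff]
      exact_mod_cast hE
    rw [pow_one p] at h1 h2 hle ⊢
    refine le_min hle (le_min ?_ ?_)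
    · push_cast at h3 h8 h9 ⊢
      nlinarith
    · rw [if_pos rfl]
      have h10 : 2 * (1 / Real.sqrt p) ≤ k * (1 / Real.sqrt p) :=
        mul_le_mul_of_nonneg_right hk0 (by positivity)
      rw [div_eq_mul_one_div] at h6 ⊢
      linarith
  · obtain ⟨i, rfl⟩ := Nat.exists_eq_add_of_le' h4
    have h5 := Bad_two F (by omega) hl (i := i) hp hpR hc ha (hkap0 p (i + 2))
      fun g a1 a2 a3 => hold g (a1.trans hF) a2 a3 p _ a hp hj ha
    refine le_min hle (le_min ?_ ?_)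
    · push_cast at h3 h9 ⊢
      nlinarith
    · rw [if_neg (by omega), ← hF]
      refine Gam_two F hp h4 (fun hd => hp.one_lt.ne' ?_) (by omega) (by omega) ?_
      · exact_mod_cast Int.isUnit_iff_natAbs_eq.1 (ha.isUnit_of_dvd' hd dvd_rfl)
      · by_contra hcon
        push Not at hcon
        exact hpR (Int.natCast_dvd_natCast.1 (hc p hcon))

/-- the same at prime powers -/
theorem complete_sumsU (k : ℕ) (hk : 2 ≤ k) : ∃ E : ℕ, 1 ≤ E ∧ ∀ R : ℕ, 1 ≤ R →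
    ∃ (K p0 : ℕ) (kap : ℕ → ℕ → ℝ), 1 ≤ K ∧ (∀ p j, 0 ≤ kap p j) ∧ (∀ p j, kap p j ≤ 1) ∧
      (∀ p j, p.Prime → p0 < p → 2 ≤ j → kap p j ≤ K * (p : ℝ) ^ (-(j : ℝ) / E)) ∧
      (∀ p, p.Prime → p0 < p → kap p 1 ≤ 4 * k / Real.sqrt p) ∧
      (∀ p j, p.Prime → p0 < p → 2 ≤ j → kap p j ≤ k / p) ∧
      ∀ F : PL, F.natDegree = k → 0 < F.leadingCoeff →
        (∀ g : ℤ, (∀ j : ℕ, 1 ≤ j → g ∣ F.coeff j) → g ∣ (R : ℤ)) →
        (∀ (p j : ℕ) (a : ℤ), p.Prime → 1 ≤ j → IsCoprime a (p : ℤ) →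
          ‖P042P.Gam F a (p ^ j)‖ ≤ kap p j) ∧
        ∀ (p : ℕ) (a : ℤ), p.Prime → p0 < p → IsCoprime a (p : ℤ) →
          ‖Gam F.toPolynomial a p‖ ≤ k / Real.sqrt p := by
  obtain ⟨E, hE, H⟩ := complete_sumsP k hk
  refine ⟨E, hE, fun R hR => ?_⟩
  obtain ⟨K, p0, kap, h1, h2, h3, h4, h5, h6, h7⟩ := H R hR
  refine ⟨K, p0, kap, h1, h2, h3, fun p j hp h hj => h4 p j hp h (by omega),
    fun p hp h => (h5 p hp h).trans ?_, h6,
    fun F a1 a2 a3 => ⟨fun p j a hp hj ha => ?_, (h7 F a1 a2 a3).1⟩⟩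
  · gcongr
    norm_num
  · have h8 := (h7 F a1 a2 a3).2 (p ^ j) a (pow_pos hp.pos j)
      (by push_cast; exact IsCoprime.pow_right ha)
    rwa [kapProd, Nat.primeFactors_prime_pow (by omega) hp, prod_singleton, hp.factorization_pow,
      Finsupp.single_eq_same] at h8

end Vale.Agent.P042PU
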