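import Vale.Agent.P042PU.Un
import Vale.Agent.P042.H74.AnW

set_option autoImplicit false

/-!
P042, prime arguments: inclusion and exclusion for the sieve weight on the admissible residues.
-/

namespace Vale.Agent.P042PU

open Polynomial Finset Vale.Agent.P042 Vale.Agent.P042.SS Vale.Agent.P042PA Vale.Agent.P042.H74

/-- the residues singular at all `p ∈ S` and admissible -/
noncomputable def ZSP (f : ℤ[X]) (u : ℤ) (v : ℕ) (S : Finset ℕ) : Finset ℕ :=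
  (ZS f S).filter fun r : ℕ => Int.gcd (u + v * r) (∏ p ∈ S, p : ℕ) = 1

/-- density of the residues admissible at all `p ∈ PP` -/
noncomputable def cst (v : ℕ) (PP : Finset ℕ) : ℝ :=
  ∏ p ∈ PP.filter (fun p => ¬ p ∣ v), (1 - (p : ℝ)⁻¹)

/-- the normalising factor of the primes outside `PP` -/
noncomputable def nq (v : ℕ) (PP : Finset ℕ) (q : ℕ) : ℝ :=
  ∏ p ∈ q.primeFactors \ PP, if p ∣ v then 1 else (p : ℝ) / (p - 1)

theorem cst_nonneg (v : ℕ) (PP : Finset ℕ) : 0 ≤ cst v PP :=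
  prod_nonneg fun p _ => sub_nonneg.2 (Nat.cast_inv_le_one p)

theorem cst_le_one (v : ℕ) (PP : Finset ℕ) : cst v PP ≤ 1 :=
  prod_le_one (fun p _ => sub_nonneg.2 (Nat.cast_inv_le_one p)) fun p _ =>
    sub_le_self _ (by positivity)

theorem ZSP_sub (f : ℤ[X]) (u : ℤ) (v : ℕ) (S : Finset ℕ) : ZSP f u v S ⊆ ZS f S :=
  filter_subset _ _

theorem ZSP_lt {f : ℤ[X]} {u : ℤ} {v : ℕ} {S : Finset ℕ} {r : ℕ} (hr : r ∈ ZSP f u v S) :
    r < ∏ p ∈ S, p :=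
  mem_range.1 (mem_filter.1 (mem_filter.1 hr).1).1

theorem ZSP_gcd {f : ℤ[X]} {u : ℤ} {v : ℕ} {S : Finset ℕ} {r : ℕ} (h : Int.gcd u v = 1)
    (hr : r ∈ ZSP f u v S) : Int.gcd (u + v * r) ((v * ∏ p ∈ S, p : ℕ) : ℤ) = 1 :=
  cop_next h (Int.isCoprime_iff_gcd_eq_one.2 (mem_filter.1 hr).2)

theorem tot_real (n : ℕ) :
    (Nat.totient n : ℝ) = n * ∏ p ∈ n.primeFactors, (1 - (p : ℝ)⁻¹) := by
  have h := congrArg (Rat.cast : ℚ → ℝ) (Nat.totient_eq_mul_prod_factors n)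
  push_cast at h
  exact h

theorem tot_split {v q : ℕ} {PP : Finset ℕ} (hPP : ∀ p ∈ PP, p.Prime) (hv : 1 ≤ v) (hq : 1 ≤ q) :
    nq v PP q * (Nat.totient (v * (q * ∏ p ∈ PP, p)) : ℝ) =
      Nat.totient v * cst v PP * ((q * ∏ p ∈ PP, p : ℕ) : ℝ) := by
  have hP : (∏ p ∈ PP, p) ≠ 0 := prod_ne_zero_iff.2 fun p hp => (hPP p hp).ne_zero
  have hq0 : q ≠ 0 := by omega
  have hv0 : v ≠ 0 := by omega
  have e0 : (v * (q * ∏ p ∈ PP, p)).primeFactors = v.primeFactors ∪ (q.primeFactors ∪ PP) := by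
    rw [Nat.primeFactors_mul hv0 (mul_ne_zero hq0 hP), Nat.primeFactors_mul hq0 hP,
      Nat.primeFactors_prod hPP]
  have e1 : (v.primeFactors ∪ (q.primeFactors ∪ PP)).filter (fun p => p ∣ v) = v.primeFactors := by
    ext p
    simp only [mem_filter, mem_union, Nat.mem_primeFactors]
    constructor
    · rintro ⟨h1 | h1 | h1, h2⟩
      · exact h1
      · exact ⟨h1.1, h2, hv0⟩
      · exact ⟨hPP p h1, h2, hv0⟩
    · intro h1
      exact ⟨Or.inl h1, h1.2.1⟩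
  have e2 : (v.primeFactors ∪ (q.primeFactors ∪ PP)).filter (fun p => ¬ p ∣ v) =
      PP.filter (fun p => ¬ p ∣ v) ∪ (q.primeFactors \ PP).filter (fun p => ¬ p ∣ v) := by
    ext p
    simp only [mem_filter, mem_union, mem_sdiff, Nat.mem_primeFactors]
    tauto
  have e3 : Disjoint (PP.filter (fun p => ¬ p ∣ v))
      ((q.primeFactors \ PP).filter (fun p => ¬ p ∣ v)) := by
    rw [disjoint_left]
    intro p h1 h2
    exact (mem_sdiff.1 (mem_filter.1 h2).1).2 (mem_filter.1 h1).1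
  have e4 : nq v PP q * ∏ p ∈ (q.primeFactors \ PP).filter (fun p => ¬ p ∣ v),
      (1 - (p : ℝ)⁻¹) = 1 := by
    unfold nq
    rw [prod_filter, ← prod_mul_distrib]
    refine prod_eq_one fun p hp => ?_
    have h2 : (2 : ℝ) ≤ p := by
      exact_mod_cast (Nat.prime_of_mem_primeFactors (mem_sdiff.1 hp).1).two_le
    have h3 : (p : ℝ) - 1 ≠ 0 := by linarith
    have h4 : (p : ℝ) ≠ 0 := by linarith
    by_cases h1 : p ∣ v
    · simp [h1]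
    · simp only [h1, if_false, not_false_eq_true, if_true]
      field_simp
  rw [tot_real (v * _), e0, ← prod_filter_mul_prod_filter_not (v.primeFactors ∪ _) (fun p => p ∣ v),
    e1, e2, prod_union e3, tot_real v, Nat.cast_mul v]
  unfold cst
  linear_combination ((v : ℝ) * ((q * ∏ p ∈ PP, p : ℕ) : ℝ) *
    (∏ p ∈ v.primeFactors, (1 - (p : ℝ)⁻¹)) *
    ∏ p ∈ PP.filter (fun p => ¬ p ∣ v), (1 - (p : ℝ)⁻¹)) * e4

/-- the sum over the residues singular at all `p ∈ S` -/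
theorem sum_sing (f : ℤ[X]) {u : ℤ} {v : ℕ} (S : Finset ℕ) (a : ℤ) {q w : ℕ} (hv : 1 ≤ v)
    (hq : 1 ≤ q) (hw : 1 ≤ w) (hm : 1 ≤ ∏ p ∈ S, p) (h : Int.gcd u v = 1) :
    ∑ z ∈ Un u v ((∏ p ∈ S, p) * (q * w)),
      (if ∀ p ∈ S, (p : ℤ) ∣ (derivative f).eval (z : ℤ) then
        e (a * ((f.eval (z : ℤ) : ℤ) : ℝ) / q) else 0) =
    ∑ r ∈ ZSP f u v S, (((Nat.totient (v * (∏ p ∈ S, p) * q * w) : ℝ) /
      (Nat.totient (v * ∏ p ∈ S, p) : ℝ) : ℝ) : ℂ) *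
      GamL (fer f (∏ p ∈ S, p) r) (u + v * r) (v * ∏ p ∈ S, p) a q := by
  obtain ⟨m, hmd⟩ : ∃ m, m = ∏ p ∈ S, p := ⟨_, rfl⟩
  have e1 : ZSP f u v S = (Un u v m).filter
      fun r : ℕ => ∀ p ∈ S, (p : ℤ) ∣ (derivative f).eval (r : ℤ) := by
    unfold ZSP ZS Un
    rw [← hmd, filter_comm]
  rw [e1, ← hmd, sum_Un_mul, sum_filter]
  rw [← hmd] at hm
  refine sum_congr rfl fun r hr => ?_
  have e2 : ∀ t : ℕ, (∀ p ∈ S, (p : ℤ) ∣ (derivative f).eval ((r + m * t : ℕ) : ℤ)) ↔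
      ∀ p ∈ S, (p : ℤ) ∣ (derivative f).eval (r : ℤ) := by
    intro t
    refine forall₂_congr fun p hp => eval_dvd_congr _ p _ _ ?_
    have h3 : (p : ℤ) ∣ (m : ℤ) := by
      rw [hmd]
      exact_mod_cast dvd_prod_of_mem (fun p => p) hp
    refine h3.trans ⟨t, ?_⟩
    push_cast
    ring
  simp only [e2]
  split_ifs with h1
  · rw [← sum_Un_GamL _ a (Nat.mul_pos hv hm) hq hw (cop_next h (mem_Un.1 hr).2)]
    refine sum_congr rfl fun t _ => ?_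
    rw [fer_eval, Nat.cast_add, Nat.cast_mul, add_comm (r : ℤ)]
  · exact sum_const_zero

/-- **expansion of the sieved sum over the admissible residues** -/
theorem expand_core (f : ℤ[X]) {u : ℤ} {v : ℕ} {PP : Finset ℕ} (hPP : ∀ p ∈ PP, p.Prime) (a : ℤ)
    {q : ℕ} (hv : 1 ≤ v) (hq : 1 ≤ q) (h : Int.gcd u v = 1) :
    (∑ z ∈ Un u v (q * ∏ p ∈ PP, p), ((om f PP z * nq v PP q : ℝ) : ℂ) *
      e (a * ((f.eval (z : ℤ) : ℤ) : ℝ) / q)) / ((q * ∏ p ∈ PP, p : ℕ) : ℂ) =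
    (cst v PP : ℂ) * ∑ S ∈ PP.powerset, ∑ r ∈ ZSP f u v S,
      (((-1 : ℝ) ^ S.card * ((Nat.totient v : ℝ) / (Nat.totient (v * ∏ p ∈ S, p) : ℝ)) : ℝ) : ℂ) *
        GamL (fer f (∏ p ∈ S, p) r) (u + v * r) (v * ∏ p ∈ S, p) a q := by
  have hP0 : ∀ S ⊆ PP, 1 ≤ ∏ p ∈ S, p := fun S hS =>
    Nat.pos_of_ne_zero (prod_ne_zero_iff.2 fun p hp => (hPP p (hS hp)).ne_zero)
  have hW : ((q * ∏ p ∈ PP, p : ℕ) : ℂ) ≠ 0 :=
    Nat.cast_ne_zero.2 (Nat.mul_pos hq (hP0 PP subset_rfl)).ne'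
  have h3 : ∀ z ∈ Un u v (q * ∏ p ∈ PP, p), ((om f PP z * nq v PP q : ℝ) : ℂ) *
      e (a * ((f.eval (z : ℤ) : ℤ) : ℝ) / q) =
      ∑ S ∈ PP.powerset, (((-1 : ℝ) ^ S.card * nq v PP q : ℝ) : ℂ) *
        (if ∀ p ∈ S, (p : ℤ) ∣ (derivative f).eval (z : ℤ) then
          e (a * ((f.eval (z : ℤ) : ℤ) : ℝ) / q) else 0) := by
    intro z _
    rw [om_expand, sum_mul, Complex.ofReal_sum, sum_mul]
    refine sum_congr rfl fun S _ => ?_
    split_ifs <;> push_cast <;> ring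
  rw [sum_congr rfl h3, sum_comm, div_eq_iff hW, mul_sum, sum_mul]
  refine sum_congr rfl fun S hS => ?_
  have hS' := mem_powerset.1 hS
  have hsplit : q * ∏ p ∈ PP, p = (∏ p ∈ S, p) * (q * ∏ p ∈ PP \ S, p) := by
    rw [← prod_sdiff hS']
    ring
  have h4 := sum_sing f S a hv hq (hP0 (PP \ S) sdiff_subset) (hP0 S hS') h
  have h5 : v * (∏ p ∈ S, p) * q * ∏ p ∈ PP \ S, p = v * (q * ∏ p ∈ PP, p) := by
    rw [hsplit]
    ring
  rw [← hsplit, h5] at h4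
  rw [← mul_sum, h4, mul_sum, mul_sum, sum_mul]
  refine sum_congr rfl fun r _ => ?_
  have h6 := congrArg (fun x : ℝ => (x : ℂ)) (tot_split hPP hv hq)
  simp only [Complex.ofReal_mul, Complex.ofReal_natCast] at h6
  simp only [Complex.ofReal_mul, Complex.ofReal_natCast, Complex.ofReal_div]
  linear_combination ((((-1 : ℝ) ^ S.card : ℝ) : ℂ) / (Nat.totient (v * ∏ p ∈ S, p) : ℂ) *
    GamL (fer f (∏ p ∈ S, p) r) (u + v * r) (v * ∏ p ∈ S, p) a q) * h6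

/-- admissible modulo `q ∏ PP` means admissible at all primes of `PP` and of `q` -/
theorem cop_iff {PP : Finset ℕ} (hPP : ∀ p ∈ PP, p.Prime) {q : ℕ} (hq : 1 ≤ q) (l : ℤ) :
    IsCoprime l ((q * ∏ p ∈ PP, p : ℕ) : ℤ) ↔
      (∀ p ∈ PP, ¬ (p : ℤ) ∣ l) ∧ ∀ p ∈ q.primeFactors \ PP, ¬ (p : ℤ) ∣ l := by
  constructor
  · intro h
    refine ⟨fun p hp => ?_, fun p hp => ?_⟩
    · refine (cop_prime (hPP p hp)).1 (h.of_isCoprime_of_dvd_right ?_)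
      exact_mod_cast (dvd_prod_of_mem (fun p => p) hp).mul_left q
    · have h1 := Nat.mem_primeFactors.1 (mem_sdiff.1 hp).1
      refine (cop_prime h1.1).1 (h.of_isCoprime_of_dvd_right ?_)
      exact_mod_cast h1.2.1.mul_right _
  · rintro ⟨h1, h2⟩
    rw [Int.isCoprime_iff_gcd_eq_one]
    by_contra hne
    obtain ⟨p, hp, hd⟩ := Nat.exists_prime_and_dvd hne
    have h3 : (p : ℤ) ∣ l := (Int.natCast_dvd_natCast.2 hd).trans (Int.gcd_dvd_left _ _)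
    have h4 : p ∣ q * ∏ p ∈ PP, p :=
      Int.natCast_dvd_natCast.1 ((Int.natCast_dvd_natCast.2 hd).trans (Int.gcd_dvd_right _ _))
    by_cases h5 : p ∈ PP
    · exact h1 p h5 h3
    · rcases (Nat.Prime.dvd_mul hp).1 h4 with h6 | h6
      · exact h2 p (mem_sdiff.2 ⟨Nat.mem_primeFactors.2 ⟨hp, h6, by omega⟩, h5⟩) h3
      · obtain ⟨r, hr, h7⟩ := (Prime.dvd_finsetProd_iff hp.prime _).1 h6
        exact h5 ((Nat.prime_dvd_prime_iff_eq hp (hPP r hr)).1 h7 ▸ hr)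

/-- the product of the local weights -/
theorem weight_eq (f : ℤ[X]) {v q : ℕ} {PP : Finset ℕ} (hPP : ∀ p ∈ PP, p.Prime) (hq : 1 ≤ q)
    (z l : ℤ) (o n : ℕ → ℝ) (ho0 : ∀ p ∈ PP, (p : ℤ) ∣ l → o p = 0)
    (ho1 : ∀ p ∈ PP, ¬ (p : ℤ) ∣ l → o p = if (p : ℤ) ∣ (derivative f).eval z then 0 else 1)
    (hn0 : ∀ p ∈ q.primeFactors \ PP, (p : ℤ) ∣ l → n p = 0)
    (hn1 : ∀ p ∈ q.primeFactors \ PP, ¬ (p : ℤ) ∣ l →
      n p = if p ∣ v then 1 else (p : ℝ) / (p - 1)) :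
    (∏ p ∈ PP, o p) * ∏ p ∈ q.primeFactors \ PP, n p =
      if Int.gcd l ((q * ∏ p ∈ PP, p : ℕ) : ℤ) = 1 then om f PP z * nq v PP q else 0 := by
  split_ifs with h
  · rw [← Int.isCoprime_iff_gcd_eq_one, cop_iff hPP hq] at h
    unfold om nq
    rw [prod_congr rfl fun p hp => ho1 p hp (h.1 p hp),
      prod_congr rfl fun p hp => hn1 p hp (h.2 p hp)]
  · rw [← Int.isCoprime_iff_gcd_eq_one, cop_iff hPP hq, not_and_or] at h
    rcases h with h | h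
    · push Not at h
      obtain ⟨p, hp, hd⟩ := h
      rw [prod_eq_zero hp (ho0 p hp hd), zero_mul]
    · push Not at h
      obtain ⟨p, hp, hd⟩ := h
      rw [prod_eq_zero hp (hn0 p hp hd), mul_zero]

theorem not_dvd_v {u : ℤ} {v p : ℕ} (hp : p.Prime) (h : Int.gcd u v = 1) {z : ℤ}
    (hd : (p : ℤ) ∣ u + v * z) : ¬ (p : ℤ) ∣ (v : ℤ) := fun hv => by
  have h1 : (p : ℤ) ∣ u := (dvd_add_left (hv.mul_right z)).1 hd
  have h2 := Int.dvd_coe_gcd h1 hv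
  rw [h] at h2
  exact hp.not_dvd_one (Int.natCast_dvd_natCast.1 h2)

/-- **expansion of the weighted complete sum**, the weights written out -/
theorem expand_lit (f : ℤ[X]) {u : ℤ} {v : ℕ} {PP : Finset ℕ} (hPP : ∀ p ∈ PP, p.Prime) (a : ℤ)
    {q : ℕ} (hv : 1 ≤ v) (hq : 1 ≤ q) (h : Int.gcd u v = 1) (o n : ℤ → ℕ → ℝ)
    (ho : ∀ z p, o z p = if (p : ℤ) ∣ (derivative f).eval z ∨
      ((p : ℤ) ∣ u + v * z ∧ ¬ (p : ℤ) ∣ (v : ℤ)) then 0 else 1)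
    (hn : ∀ z p, n z p = if (p : ℤ) ∣ (v : ℤ) then 1 else
      if (p : ℤ) ∣ u + v * z then 0 else (p : ℝ) / (p - 1)) :
    (∑ z ∈ range (q * ∏ p ∈ PP, p),
      (((∏ p ∈ PP, o z p) * ∏ p ∈ q.primeFactors \ PP, n z p : ℝ) : ℂ) *
      e (a * ((f.eval (z : ℤ) : ℤ) : ℝ) / q)) / ((q * ∏ p ∈ PP, p : ℕ) : ℂ) =
    (cst v PP : ℂ) * ∑ S ∈ PP.powerset, ∑ r ∈ ZSP f u v S,
      (((-1 : ℝ) ^ S.card * ((Nat.totient v : ℝ) / (Nat.totient (v * ∏ p ∈ S, p) : ℝ)) : ℝ) : ℂ) *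
        GamL (fer f (∏ p ∈ S, p) r) (u + v * r) (v * ∏ p ∈ S, p) a q := by
  rw [← expand_core f hPP a hv hq h]
  congr 1
  unfold Un
  rw [sum_filter]
  refine sum_congr rfl fun z _ => ?_
  rw [weight_eq f (v := v) hPP hq z (u + v * z) (o z) (n z)]
  · split_ifs <;> simp
  · intro p hp hd
    rw [ho, if_pos (Or.inr ⟨hd, not_dvd_v (hPP p hp) h hd⟩)]
  · intro p _ hd
    rw [ho]
    simp only [hd, false_and, or_false]
  · intro p hp hd
    rw [hn, if_neg (not_dvd_v (Nat.prime_of_mem_primeFactors (mem_sdiff.1 hp).1) h hd), if_pos hd]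
  · intro p _ hd
    rw [hn, if_neg hd]
    simp only [Int.natCast_dvd_natCast]

/-- the coefficient of `S`: at most `∏ 1 / (p - 1)`, and `(ZSP).card` times it is at most one -/
theorem card_ZSP_mul_le (f : ℤ[X]) {u : ℤ} {v : ℕ} {S : Finset ℕ} (hv : 1 ≤ v)
    (hm : 1 ≤ ∏ p ∈ S, p) (h : Int.gcd u v = 1) :
    ((ZSP f u v S).card : ℝ) *
      ((Nat.totient v : ℝ) / (Nat.totient (v * ∏ p ∈ S, p) : ℝ)) ≤ 1 := by
  have h3 : (0 : ℝ) < Nat.totient v := by exact_mod_cast Nat.totient_pos.2 hv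
  have h4 : (0 : ℝ) < Nat.totient (v * ∏ p ∈ S, p) := by
    exact_mod_cast Nat.totient_pos.2 (Nat.mul_pos hv hm)
  have h5 : ((ZSP f u v S).card : ℝ) ≤ (Un u v (∏ p ∈ S, p)).card := by
    refine Nat.cast_le.2 (card_le_card fun r hr => ?_)
    exact mem_filter.2 ⟨mem_range.2 (ZSP_lt hr), (mem_filter.1 hr).2⟩
  refine (mul_le_mul_of_nonneg_right h5 (by positivity)).trans (le_of_eq ?_)
  rw [card_Un hv hm h]
  field_simp

/-- `φ(v) / φ(v m) ≤ 1 / φ(m)` -/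
theorem tot_ratio_le {v m : ℕ} (hv : 1 ≤ v) (hm : 1 ≤ m) :
    (Nat.totient v : ℝ) / (Nat.totient (v * m) : ℝ) ≤ 1 / (Nat.totient m : ℝ) := by
  have h3 : (0 : ℝ) < Nat.totient m := by exact_mod_cast Nat.totient_pos.2 hm
  have h4 : (0 : ℝ) < Nat.totient (v * m) := by
    exact_mod_cast Nat.totient_pos.2 (Nat.mul_pos hv hm)
  rw [div_le_div_iff₀ h4 h3, one_mul]
  exact_mod_cast Nat.totient_super_multiplicative v m

/-- the coefficient of `S` in the expansion -/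
noncomputable def cf (v : ℕ) (PP S : Finset ℕ) : ℝ :=
  cst v PP * ((Nat.totient v : ℝ) / (Nat.totient (v * ∏ p ∈ S, p) : ℝ))

theorem cf_nonneg (v : ℕ) (PP S : Finset ℕ) : 0 ≤ cf v PP S :=
  mul_nonneg (cst_nonneg v PP) (by positivity)

theorem cf_le {v : ℕ} {PP S : Finset ℕ} (hPP : ∀ p ∈ PP, p.Prime) (hS : S ⊆ PP) (hv : 1 ≤ v) :
    cf v PP S ≤ 1 / ((∏ p ∈ S, p : ℕ) : ℝ) := by
  have hm : 1 ≤ ∏ p ∈ S, p :=
    Nat.pos_of_ne_zero (prod_ne_zero_iff.2 fun p hp => (hPP p (hS hp)).ne_zero)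
  have hm' : (0 : ℝ) < ((∏ p ∈ S, p : ℕ) : ℝ) := by exact_mod_cast hm
  have h3 : (0 : ℝ) < Nat.totient v := by exact_mod_cast Nat.totient_pos.2 hv
  have h4 : (0 : ℝ) < Nat.totient (v * ∏ p ∈ S, p) := by
    exact_mod_cast Nat.totient_pos.2 (Nat.mul_pos hv hm)
  have h1 := tot_split (q := 1) (fun p hp => hPP p (hS hp)) hv le_rfl
  have h2 : nq v S 1 = 1 := by simp [nq]
  rw [h2, one_mul, one_mul] at h1
  have h5 : cst v PP ≤ cst v S :=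
    prod_le_prod_of_subset_of_le_one (filter_subset_filter _ hS)
      (fun p _ => sub_nonneg.2 (Nat.cast_inv_le_one p)) fun p _ _ => sub_le_self _ (by positivity)
  unfold cf
  rw [← mul_div_assoc, div_le_div_iff₀ h4 hm', one_mul, h1, mul_comm (cst v PP)]
  gcongr

end Vale.Agent.P042PU
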