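import Vale.Agent.P042P.Defs
import Vale.Agent.P042.H74.SeamG

set_option autoImplicit false

/-!
P042, prime arguments: the unit weight.
-/

namespace Vale.Agent.P042PU

open Polynomial Finset Vale.Agent.P042 Vale.Agent.P042.SS
open Vale.Agent.P042.H74 (avC Per avC_period avC_crt ef_per eval_dvd_congr)
open Vale.Agent.P042P (PL Lp Dp nu dvd_Lp dvd_Dp Lp_eval)

/-- the unit weight at a set of primes -/
noncomputable def uw (F : PL) (S : Finset ℕ) (z : ℤ) : ℝ :=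
  ∏ p ∈ S, if (p : ℤ) ∣ (Lp F p).eval z then 0 else P042P.wl F p

theorem nu_eq (F : PL) (PP : Finset ℕ) (q : ℕ) (z : ℤ) :
    nu F PP q z = uw F (q.primeFactors \ PP) z := rfl

theorem wl_nonneg (F : PL) {p : ℕ} (hp : p.Prime) : 0 ≤ P042P.wl F p := by
  have h2 : (2 : ℝ) ≤ p := by exact_mod_cast hp.two_le
  unfold P042P.wl
  split_ifs
  · exact zero_le_one
  · exact div_nonneg (by linarith) (by linarith)

theorem wl_le (F : PL) {p : ℕ} (hp : p.Prime) : P042P.wl F p ≤ p / (p - 1) := by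
  have h2 : (2 : ℝ) ≤ p := by exact_mod_cast hp.two_le
  unfold P042P.wl
  split_ifs
  · rw [le_div_iff₀ (by linarith)]
    linarith
  · exact le_rfl

theorem uw_nonneg (F : PL) {S : Finset ℕ} (hS : ∀ p ∈ S, p.Prime) (z : ℤ) : 0 ≤ uw F S z :=
  prod_nonneg fun p hp => by
    split_ifs
    · exact le_rfl
    · exact wl_nonneg F (hS p hp)

theorem nu_nonneg (F : PL) (PP : Finset ℕ) (q : ℕ) (z : ℤ) : 0 ≤ nu F PP q z :=
  uw_nonneg F (fun _ hp => Nat.prime_of_mem_primeFactors (mem_sdiff.1 hp).1) z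

theorem uw_congr (F : PL) (S : Finset ℕ) {z z' : ℤ} (h : ∀ p ∈ S, (p : ℤ) ∣ z - z') :
    uw F S z = uw F S z' :=
  prod_congr rfl fun p hp => by simp only [eval_dvd_congr _ p z z' (h p hp)]

theorem uw_per (F : PL) (S : Finset ℕ) (M : ℕ) (hM : ∀ p ∈ S, p ∣ M) :
    Per M (fun z => (uw F S z : ℂ)) := fun z => by
  simp only
  rw [uw_congr F S (z' := z) fun p hp => by
    rw [add_sub_cancel_left]
    exact_mod_cast hM p hp]

theorem nu_per (F : PL) (PP : Finset ℕ) (q M : ℕ) (hM : ∀ p : ℕ, p.Prime → p ∣ q → p ∣ M) :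
    Per M (fun z => (nu F PP q z : ℂ)) :=
  uw_per F _ M fun p hp => hM p (Nat.prime_of_mem_primeFactors (mem_sdiff.1 hp).1)
    (Nat.dvd_of_mem_primeFactors (mem_sdiff.1 hp).1)

theorem nu_per_self (F : PL) (PP : Finset ℕ) (q : ℕ) : Per q (fun z => (nu F PP q z : ℂ)) :=
  nu_per F PP q q fun _ _ h => h

theorem uw_union (F : PL) {S T : Finset ℕ} (h : Disjoint S T) (z : ℤ) :
    uw F (S ∪ T) z = uw F S z * uw F T z := prod_union h

theorem nu_mul (F : PL) (PP : Finset ℕ) {D1 D2 : ℕ} (hc : Nat.Coprime D1 D2) (z : ℤ) :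
    nu F PP (D1 * D2) z = nu F PP D1 z * nu F PP D2 z := by
  rw [nu_eq, nu_eq, nu_eq, hc.primeFactors_mul, union_sdiff_distrib]
  exact uw_union F (hc.disjoint_primeFactors.mono sdiff_subset sdiff_subset) z

theorem nu_one (F : PL) (PP : Finset ℕ) (z : ℤ) : nu F PP 1 z = 1 := by
  simp [nu]

/-- all primes of `q` are sieved -/
theorem nu_of_sub (F : PL) {PP : Finset ℕ} {q : ℕ} (h : ∀ p : ℕ, p.Prime → p ∣ q → p ∈ PP)
    (z : ℤ) : nu F PP q z = 1 := by
  have e : q.primeFactors \ PP = ∅ := sdiff_eq_empty_iff_subset.2 fun p hp =>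
    h p (Nat.prime_of_mem_primeFactors hp) (Nat.dvd_of_mem_primeFactors hp)
  rw [nu_eq, e]
  exact prod_empty

theorem nu_prime (F : PL) {PP : Finset ℕ} {p : ℕ} (hp : p.Prime) (hpP : p ∈ PP) (z : ℤ) :
    nu F PP p z = 1 :=
  nu_of_sub F (fun _ hl hd => (Nat.prime_dvd_prime_iff_eq hl hp).1 hd ▸ hpP) z

/-- no prime of `q` is sieved -/
theorem nu_coprime (F : PL) {PP : Finset ℕ} {q : ℕ} (h : ∀ p ∈ PP, ¬ p ∣ q) (z : ℤ) :
    nu F PP q z = nu F ∅ q z := by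
  rw [nu_eq, nu_eq, sdiff_empty, sdiff_eq_self_of_disjoint]
  exact disjoint_right.2 fun p hp hq => h p hp (Nat.dvd_of_mem_primeFactors hq)

/-- the primes of `q` outside `PP` divide `v` -/
theorem nu_of_dvd (F : PL) {PP : Finset ℕ} {q : ℕ}
    (h : ∀ p : ℕ, p.Prime → p ∣ q → (p : ℤ) ∣ F.v) (z : ℤ) : nu F PP q z = 1 :=
  prod_eq_one fun p hp => by
    have h1 := Nat.prime_of_mem_primeFactors (mem_sdiff.1 hp).1
    have h2 := h p h1 (Nat.dvd_of_mem_primeFactors (mem_sdiff.1 hp).1)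
    rw [if_neg fun h3 => ((dvd_Lp F h1 z).1 h3).2 h2]
    unfold P042P.wl
    rw [if_pos h2]

theorem dvd_fer_v (F : PL) {p m : ℕ} (hp : p.Prime) (hc : ¬ p ∣ m) (r : ℤ) :
    (p : ℤ) ∣ (P042P.fer F m r).v ↔ (p : ℤ) ∣ F.v := by
  rw [P042P.fer_v, (Nat.prime_iff_prime_int.1 hp).dvd_mul, Int.natCast_dvd_natCast, or_iff_left hc]

theorem dvd_Lp_fer (F : PL) {p m : ℕ} (hp : p.Prime) (hc : ¬ p ∣ m) (r z : ℤ) :
    (p : ℤ) ∣ (Lp (P042P.fer F m r) p).eval z ↔ (p : ℤ) ∣ (Lp F p).eval (m * z + r) := by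
  rw [dvd_Lp _ hp, dvd_Lp _ hp, dvd_fer_v F hp hc, P042P.fer_u, P042P.fer_v,
    show F.u + F.v * r + F.v * m * z = F.u + F.v * (m * z + r) by ring]

theorem dvd_Dp_fer (F : PL) {p m : ℕ} (hp : p.Prime) (hc : ¬ p ∣ m) (r z : ℤ) :
    (p : ℤ) ∣ (Dp (P042P.fer F m r) p).eval z ↔ (p : ℤ) ∣ (Dp F p).eval (m * z + r) := by
  rw [dvd_Dp _ hp, dvd_Dp _ hp, dvd_Lp_fer F hp hc, P042P.fer_toP, H74.dvd_deriv_fer _ hp hc]

theorem wl_fer (F : PL) {p m : ℕ} (hp : p.Prime) (hc : ¬ p ∣ m) (r : ℤ) :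
    P042P.wl (P042P.fer F m r) p = P042P.wl F p := by
  unfold P042P.wl
  simp only [dvd_fer_v F hp hc]

theorem nu_fer (F : PL) (PP : Finset ℕ) {m q : ℕ} (hc : Nat.Coprime m q) (r z : ℤ) :
    nu (P042P.fer F m r) PP q z = nu F PP q (m * z + r) :=
  prod_congr rfl fun p hp => by
    have h1 := Nat.prime_of_mem_primeFactors (mem_sdiff.1 hp).1
    have h2 : ¬ p ∣ m := fun h => h1.one_lt.ne' (Nat.eq_one_of_dvd_coprimes hc h
      (Nat.dvd_of_mem_primeFactors (mem_sdiff.1 hp).1))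
    simp only [dvd_Lp_fer F h1 h2, wl_fer F h1 h2]

/-- exactly one root of the linear form -/
theorem card_root {p : ℕ} (hp : p.Prime) (u : ℤ) {v : ℤ} (hv : ¬ (p : ℤ) ∣ v) :
    ((range p).filter (fun z : ℕ => (p : ℤ) ∣ u + v * z)).card = 1 := by
  have : Fact p.Prime := ⟨hp⟩
  have hv0 : (v : ZMod p) ≠ 0 := by rwa [Ne, ZMod.intCast_zmod_eq_zero_iff_dvd]
  refine card_eq_one.2 ⟨(-(u : ZMod p) / v).val, ?_⟩
  ext x
  rw [mem_filter, mem_range, mem_singleton, ← ZMod.intCast_zmod_eq_zero_iff_dvd]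
  push_cast
  have h1 : (u : ZMod p) + v * x = 0 ↔ (x : ZMod p) = -(u : ZMod p) / v := by
    rw [eq_div_iff hv0]
    constructor <;> intro h2 <;> linear_combination h2
  rw [h1]
  constructor
  · rintro ⟨h2, h3⟩
    rw [← h3, ZMod.val_cast_of_lt h2]
  · rintro rfl
    exact ⟨ZMod.val_lt _, ZMod.natCast_zmod_val _⟩

theorem card_Lp_le (F : PL) {p : ℕ} (hp : p.Prime) :
    ((range p).filter (fun z : ℕ => (p : ℤ) ∣ (Lp F p).eval (z : ℤ))).card ≤ 1 := by
  by_cases hv : (p : ℤ) ∣ F.v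
  · rw [filter_false_of_mem fun z _ h => ((dvd_Lp F hp _).1 h).2 hv]
    simp
  · rw [← card_root hp F.u hv]
    exact card_le_card fun z hz =>
      mem_filter.2 ⟨(mem_filter.1 hz).1, ((dvd_Lp F hp _).1 (mem_filter.1 hz).2).1⟩

/-- at most `k` bad residues -/
theorem card_Dp_le (F : PL) {p : ℕ} (hp : p.Prime) (hk1 : 1 ≤ F.natDegree)
    (hkp : F.natDegree < p) (hnc : ∃ j : ℕ, 1 ≤ j ∧ ¬ (p : ℤ) ∣ F.coeff j) :
    ((range p).filter (fun z : ℕ => (p : ℤ) ∣ (Dp F p).eval (z : ℤ))).card ≤ F.natDegree := by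
  have h1 := H245.sing_card F.toPolynomial F.natDegree p hp hk1 rfl hkp hnc
  have h2 := card_Lp_le F hp
  simp only [dvd_Dp F hp]
  rw [filter_or]
  refine (card_union_le _ _).trans ?_
  omega

theorem dns_ge (F : PL) (p : ℕ) (hp : p.Prime) (hk1 : 1 ≤ F.natDegree) (hkp : F.natDegree < p)
    (hnc : ∃ j : ℕ, 1 ≤ j ∧ ¬ (p : ℤ) ∣ F.coeff j) :
    1 - (F.natDegree : ℝ) / p ≤ P042P.dns F p := by
  have h1 := card_Dp_le F hp hk1 hkp hnc
  have h2 := card_filter_add_card_filter_not (s := range p)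
    (fun z : ℕ => (p : ℤ) ∣ (Dp F p).eval (z : ℤ))
  rw [card_range] at h2
  have hp0 : (0 : ℝ) < p := by exact_mod_cast hp.pos
  unfold P042P.dns
  rw [le_div_iff₀ hp0, sub_mul, div_mul_cancel₀ _ hp0.ne', one_mul, sub_le_iff_le_add]
  exact_mod_cast (by omega : p ≤ ((range p).filter
    (fun z : ℕ => ¬ (p : ℤ) ∣ (Dp F p).eval (z : ℤ))).card + F.natDegree)

theorem dns_pos (F : PL) (p : ℕ) (hp : p.Prime) (hk1 : 1 ≤ F.natDegree) (hkp : F.natDegree < p)
    (hnc : ∃ j : ℕ, 1 ≤ j ∧ ¬ (p : ℤ) ∣ F.coeff j) : 0 < P042P.dns F p := by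
  refine lt_of_lt_of_le ?_ (dns_ge F p hp hk1 hkp hnc)
  have hp0 : (0 : ℝ) < p := by exact_mod_cast hp.pos
  rw [sub_pos, div_lt_one hp0]
  exact_mod_cast hkp

theorem avC_uw_single (F : PL) {p : ℕ} (hp : p.Prime) :
    avC p (fun z => (uw F {p} z : ℂ)) = 1 := by
  have hp0 : (p : ℂ) ≠ 0 := Nat.cast_ne_zero.2 hp.ne_zero
  unfold avC uw
  simp only [prod_singleton, dvd_Lp F hp]
  rw [div_eq_one_iff_eq hp0]
  by_cases hv : (p : ℤ) ∣ F.v
  · simp [hv, P042P.wl]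
  · have h1 := card_root hp F.u hv
    have h2 := card_filter_add_card_filter_not (s := range p)
      (fun z : ℕ => (p : ℤ) ∣ F.u + F.v * z)
    rw [card_range, h1] at h2
    have h3 : (p : ℂ) - 1 ≠ 0 := sub_ne_zero.2 (by exact_mod_cast hp.one_lt.ne')
    have h4 : (((range p).filter (fun z : ℕ => ¬ (p : ℤ) ∣ F.u + F.v * z)).card : ℂ) = p - 1 := by
      rw [eq_sub_iff_add_eq, add_comm]
      exact_mod_cast h2
    simp only [hv, not_false_eq_true, and_true, P042P.wl, if_false, apply_ite Complex.ofReal]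
    rw [sum_ite, sum_const, sum_const, nsmul_eq_mul, nsmul_eq_mul, h4]
    push_cast
    field_simp
    ring

theorem avC_uw (F : PL) (S : Finset ℕ) (hS : ∀ p ∈ S, p.Prime) :
    avC (∏ p ∈ S, p) (fun z => (uw F S z : ℂ)) = 1 := by
  classical
  induction S using Finset.induction_on with
  | empty => simp [avC, uw]
  | insert p S hp ih =>
    have hpp := hS p (mem_insert_self _ _)
    have hS' : ∀ q ∈ S, q.Prime := fun q hq => hS q (mem_insert_of_mem hq)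
    rw [prod_insert hp]
    have h2 : (fun z => (uw F (insert p S) z : ℂ)) =
        fun z => (fun z => (uw F {p} z : ℂ)) z * (fun z => (uw F S z : ℂ)) z := by
      funext z
      rw [insert_eq, uw_union F (by simpa using hp)]
      push_cast
      rfl
    rw [h2, avC_crt _ hpp.one_le _ (uw_per F {p} p (by simp))
      (uw_per F S _ fun q hq => dvd_prod_of_mem _ hq), avC_uw_single F hpp, ih hS', one_mul]
    · apply Nat.Coprime.prod_right
      intro q hq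
      exact (Nat.coprime_primes hpp (hS' q hq)).2 (by
        rintro rfl
        exact hp hq)
    · exact Nat.one_le_iff_ne_zero.2 (prod_ne_zero_iff.2 fun q hq => (hS' q hq).ne_zero)

/-- the unit weight has mean one -/
theorem avC_nu (F : PL) (PP : Finset ℕ) {q : ℕ} (hq : 1 ≤ q) :
    avC q (fun z => (nu F PP q z : ℂ)) = 1 := by
  obtain ⟨w, hw⟩ : (∏ p ∈ q.primeFactors \ PP, p) ∣ q :=
    (prod_dvd_prod_of_subset _ _ _ sdiff_subset).trans (Nat.prod_primeFactors_dvd q)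
  have hw1 : 1 ≤ w := Nat.pos_of_ne_zero fun h => by
    rw [h, mul_zero] at hw
    omega
  have h1 := avC_period hw1 (uw_per F (q.primeFactors \ PP) _ fun p hp => dvd_prod_of_mem _ hp)
  rw [← hw, avC_uw F _ fun _ hp => Nat.prime_of_mem_primeFactors (mem_sdiff.1 hp).1] at h1
  exact h1

theorem Gam_eq_avC (F : PL) (a : ℤ) (q : ℕ) : P042P.Gam F a q =
    avC q (fun z => (nu F ∅ q z : ℂ) * e (a * ((F.eval z : ℤ) : ℝ) / q)) := rfl

theorem norm_Gam_le_one (F : PL) (a : ℤ) (q : ℕ) : ‖P042P.Gam F a q‖ ≤ 1 := by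
  rcases Nat.eq_zero_or_pos q with rfl | hq
  · simp [P042P.Gam]
  have h1 := congrArg Complex.re (avC_nu F ∅ hq)
  unfold avC at h1
  rw [← Complex.ofReal_sum, ← Complex.ofReal_natCast, ← Complex.ofReal_div, Complex.ofReal_re,
    Complex.one_re] at h1
  unfold P042P.Gam
  rw [norm_div, Complex.norm_natCast, ← h1]
  refine div_le_div_of_nonneg_right ((norm_sum_le _ _).trans (le_of_eq ?_)) (Nat.cast_nonneg _)
  refine sum_congr rfl fun z _ => ?_
  rw [norm_mul, norm_e, mul_one, Complex.norm_real, Real.norm_of_nonneg (nu_nonneg _ _ _ _)]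

theorem Gam_fer (F : PL) {q1 q : ℕ} (hq : 1 ≤ q) (hc : Nat.Coprime q1 q) (z0 a : ℤ) :
    P042P.Gam (P042P.fer F q1 z0) a q = P042P.Gam F a q := by
  unfold P042P.Gam
  congr 1
  rw [← H74.sum_affine hq hc z0 _ ((nu_per_self F ∅ q).mul (ef_per F.toPolynomial a q hq))]
  refine sum_congr rfl fun x _ => ?_
  rw [nu_fer F ∅ hc, P042P.fer_toP, H74.fer_eval]

theorem e_split (n u1 u2 y : ℤ) {D1 D2 : ℕ} (h1 : 1 ≤ D1) (h2 : 1 ≤ D2)
    (hu : u1 * D2 + u2 * D1 = 1) : e (n * (y : ℝ) / ((D1 * D2 : ℕ) : ℝ)) =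
      e (((n * u1 : ℤ) : ℝ) * (y : ℝ) / D1) * e (((n * u2 : ℤ) : ℝ) * (y : ℝ) / D2) := by
  have hD1 : (D1 : ℝ) ≠ 0 := by positivity
  have hD2 : (D2 : ℝ) ≠ 0 := by positivity
  have hu'' : (u1 : ℝ) * D2 + u2 * D1 = 1 := by exact_mod_cast hu
  rw [← e_add]
  congr 1
  push_cast
  field_simp
  linear_combination (-(n : ℝ)) * (y : ℝ) * hu''

theorem e_per (a m y : ℤ) {q : ℕ} (hq : 1 ≤ q) :
    e (((a + m * q : ℤ) : ℝ) * (y : ℝ) / q) = e (a * (y : ℝ) / q) := by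
  have hq0r : (q : ℝ) ≠ 0 := by positivity
  have h4 : ((a + m * q : ℤ) : ℝ) * (y : ℝ) / q = a * (y : ℝ) / q + ((m * y : ℤ) : ℝ) := by
    push_cast
    field_simp
  rw [h4, e_add, e_int, mul_one]

theorem multFam_Gam (F : PL) : MultFam (fun D n => P042P.Gam F n D) where
  per := fun D n m hD => by
    simp only [Gam_eq_avC, e_per n m _ hD]
  one := by simp [P042P.Gam, nu_one, e]
  mul := by
    intro D1 D2 n u1 u2 h1 h2 hu
    have hc : Nat.Coprime D1 D2 := by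
      rw [← Nat.isCoprime_iff_coprime]
      exact ⟨u2, u1, by linarith⟩
    simp only [Gam_eq_avC]
    rw [← avC_crt hc h1 h2 ((nu_per_self F ∅ D1).mul (ef_per F.toPolynomial (n * u1) D1 h1))
      ((nu_per_self F ∅ D2).mul (ef_per F.toPolynomial (n * u2) D2 h2))]
    congr 1
    funext z
    rw [nu_mul F ∅ hc, e_split n u1 u2 _ h1 h2 hu]
    push_cast
    ring

end Vale.Agent.P042PU
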